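import Vale.Agent.P202.RingSide.Hilbert
import Vale.Agent.P202.Koszul.Regular
import Vale.Agent.P202.Reduce.FlatInvariant

/-!
# P202: ring facts used in the assembly

Systems of parameters of a Cohen-Macaulay local ring are regular, the ring is free over the power
series ring they generate, and colengths are dimensions over a coefficient field.
-/

noncomputable section

namespace Vale.Agent.P202

open IsLocalRing RingTheory.Sequence

universe u

theorem ofList_ofFn {A : Type*} [CommRing A] {n : ℕ} (x : Fin n → A) :
    Ideal.ofList (List.ofFn x) = Ideal.span (Set.range x) := by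
  simp [Ideal.ofList, Set.range, List.mem_ofFn]

theorem forall_mem_ofFn {A : Type*} {n : ℕ} {x : Fin n → A} {P : A → Prop} (h : ∀ i, P (x i)) :
    ∀ a ∈ List.ofFn x, P a := by
  intro a ha
  rw [List.mem_ofFn] at ha
  obtain ⟨i, rfl⟩ := ha
  exact h i

section Colength

variable {k B : Type*} [Field k] [CommRing B] [IsLocalRing B] [Algebra k B]

/-- A coefficient field turns colengths into dimensions. -/
theorem finite_finrank_quotient
    (hres : ∀ a : B, ∃ c, a - algebraMap k B c ∈ maximalIdeal B) [IsNoetherianRing B]
    {J : Ideal B} {r : ℕ} (hr : maximalIdeal B ^ r ≤ J) :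
    Module.Finite k (B ⧸ J) ∧ Module.finrank k (B ⧸ J) = qlen J := by
  classical
  have hfin : Module.Finite k (B ⧸ J) := by
    obtain ⟨s, hs⟩ := exists_finset_span_mod_pow (algebraMap k B) hres r
    refine Module.Finite.of_surjective
      (Fintype.linearCombination k (fun g : s => Ideal.Quotient.mk J (g : B))) fun q => ?_
    obtain ⟨a, rfl⟩ := Ideal.Quotient.mk_surjective q
    obtain ⟨c, hc⟩ := hs a
    refine ⟨fun g => c g, ?_⟩
    rw [Fintype.linearCombination_apply, Finset.sum_coe_sort s fun g => c g • Ideal.Quotient.mk J g,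
      eq_comm, ← sub_eq_zero]
    have := Ideal.Quotient.eq_zero_iff_mem.2 (hr hc)
    rw [map_sub, map_sum] at this
    rw [← this]
    simp [Algebra.smul_def]
  refine ⟨hfin, ?_⟩
  rw [qlen]
  exact finrank_eq_length_of_residue_surjective (fun q => by
    obtain ⟨a, rfl⟩ := residue_surjective q
    obtain ⟨c, hc⟩ := hres a
    refine ⟨c, ?_⟩
    rw [RingHom.comp_apply, eq_comm, ← sub_eq_zero, ← map_sub, residue_eq_zero_iff]
    exact hc) (B ⧸ J)

end Colength

variable {k : Type u} [Field k]

/-- In a Cohen-Macaulay local ring every system of parameters is a regular sequence. -/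
theorem HasRegularSop.isWeaklyRegular {R : Type u} [CommRing R] [IsNoetherianRing R] [IsLocalRing R]
    [Algebra k R] (h : HasRegularSop R) (x : Fin (dimNat R) → R) (hx : ∀ i, x i ∈ maximalIdeal R)
    (hfin : Module.Finite k (R ⧸ Ideal.span (Set.range x))) :
    IsWeaklyRegular R (List.ofFn x) := by
  obtain ⟨z, hz, hreg⟩ := h
  refine isWeaklyRegular_of_good (k := k) (List.ofFn x) (List.ofFn z) R
    (by rw [List.length_ofFn, List.length_ofFn]) (forall_mem_ofFn hz) (forall_mem_ofFn hx) hreg
    ⟨inferInstance, ?_⟩
  have hf : Module.Finite k (R ⧸ Ideal.ofList (List.ofFn x)) := by rwa [ofList_ofFn]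
  exact finite_quot_of_le (I := Ideal.ofList (List.ofFn x)) le_sup_right

/-- Power series in a regular sequence with finite quotient act freely. -/
theorem free_powerSeries {B : Type u} [CommRing B] [IsNoetherianRing B] [IsLocalRing B]
    {d : ℕ} (φ : MvPowerSeries (Fin d) k →+* B) (hfin : φ.Finite)
    (hreg : IsWeaklyRegular B (List.ofFn fun i => φ (MvPowerSeries.X i))) :
    letI := φ.toAlgebra
    letI : Algebra k B := (φ.comp MvPowerSeries.C).toAlgebra
    Module.Free (MvPowerSeries (Fin d) k) B ∧ Module.finrank (MvPowerSeries (Fin d) k) B =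
      Module.finrank k (B ⧸ Ideal.span (Set.range fun i => φ (MvPowerSeries.X i))) := by
  let := φ.toAlgebra
  let : Algebra k B := (φ.comp MvPowerSeries.C).toAlgebra
  have : IsScalarTower k (MvPowerSeries (Fin d) k) B := IsScalarTower.of_algebraMap_eq fun c => rfl
  have : Module.Finite (MvPowerSeries (Fin d) k) B := hfin
  set V := MvPowerSeries (Fin d) k
  have hxs : Ideal.ofList (List.ofFn fun i : Fin d => (MvPowerSeries.X i : V)) = maximalIdeal V := by
    rw [ofList_ofFn, maximalIdeal_mvPowerSeries]
  have hregV : IsWeaklyRegular B (List.ofFn fun i : Fin d => (MvPowerSeries.X i : V)) := by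
    rw [← isWeaklyRegular_map_algebraMap_iff (R := V) (S := B) B, List.map_ofFn]
    exact hreg
  obtain ⟨hfree, hrank⟩ := free_of_isWeaklyRegular (k := k) _ hxs (fun a =>
    ⟨MvPowerSeries.constantCoeff a, by
      rw [mem_maximalIdeal, mem_nonunits_iff, MvPowerSeries.isUnit_iff_constantCoeff]
      simp [MvPowerSeries.algebraMap_apply]⟩) hregV
  refine ⟨hfree, hrank.trans (LinearEquiv.finrank_eq ?_)⟩
  refine ((Submodule.quotEquivOfEq _
    ((Ideal.span (Set.range fun i => φ (MvPowerSeries.X i))).restrictScalars V) ?_).trans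
    (Submodule.Quotient.restrictScalarsEquiv V _)).restrictScalars k
  rw [ofList_ofFn, Ideal.smul_top_eq_map, Ideal.map_span, ← Set.range_comp]
  rfl

end Vale.Agent.P202
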