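import Vale.Agent.P202.Main.CMMain
import Vale.Agent.P202.Reduce.General

/-!
# P202: Lech's inequality for all flat local maps out of Cohen-Macaulay rings with perfect residue
field in characteristic `p`
-/

noncomputable section

namespace Vale.Agent.P202

open IsLocalRing Filter

universe u

/-- Lech's inequality for an arbitrary flat local map out of a Cohen-Macaulay local ring of
characteristic `p` with perfect residue field. -/
theorem lech_cm_general (p : ℕ) [Fact p.Prime]
    (R : Type u) [CommRing R] [IsNoetherianRing R] [IsLocalRing R] [CharP R p]
    [PerfectField (ResidueField R)] (hCM : HasRegularSop R)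
    (S : Type u) [CommRing S] [IsNoetherianRing S] [IsLocalRing S] [Algebra R S]
    [IsLocalHom (algebraMap R S)] [Module.Flat R S] :
    limsup (hsSeq R) atTop ≤ liminf (hsSeq S) atTop :=
  lech_of_main (p := p) (Good := fun A _ _ => HasRegularSop A)
    (fun _ _ _ _ _ _ _ _ f hl hf hm h => hasRegularSop_of_flat_map_maximal f hf hl hm h)
    (fun A _ _ _ _ _ _ hA B _ _ _ _ _ _ => lech_cm_main p A hA B) R hCM S

end Vale.Agent.P202
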