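import Vale.Agent.P202.Main.RingFacts
import Vale.Agent.P202.RingSide.Reduction

/-!
# P202: a reduction of the maximal ideal of the target
-/

noncomputable section

namespace Vale.Agent.P202

open IsLocalRing RingTheory.Sequence Filter
open scoped ENNReal

universe u

/-- A minimal reduction `y` of the maximal ideal of `S`, regular, with colength at most `e(S)`. -/
theorem exists_target {k : Type u} [Field k] (p : ℕ) [Fact p.Prime]
    {R : Type u} [CommRing R] [IsNoetherianRing R] [IsLocalRing R] [CharP R p]
    [IsAdicComplete (maximalIdeal R) R] [PerfectField (ResidueField R)] [Infinite (ResidueField R)]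
    (hCM : HasRegularSop R)
    {S : Type u} [CommRing S] [IsLocalRing S] [Algebra R S] [IsLocalHom (algebraMap R S)]
    [Module.Finite R S] [Module.Flat R S] [Algebra k R] [Algebra k S] [IsScalarTower k R S]
    (hres : ∀ a : R, ∃ c, a - algebraMap k R c ∈ maximalIdeal R) :
    ∃ y : Fin (dimNat R) → S, (∀ i, y i ∈ maximalIdeal S) ∧
      IsWeaklyRegular S (List.ofFn y) ∧ Module.Finite k (S ⧸ Ideal.span (Set.range y)) ∧
      Module.Finite k (ResidueField S) ∧
      (qlen (Ideal.span (Set.range y)) : ℝ≥0∞) ≤ liminf (hsSeq S) atTop ∧
      Module.finrank k (S ⧸ Ideal.span (Set.range y)) =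
        qlen (Ideal.span (Set.range y)) * Module.finrank k (ResidueField S) := by
  classical
  have hfree : Module.Free R S := Module.free_of_flat_of_isLocalRing
  have : IsNoetherianRing S := IsNoetherianRing.of_finite R S
  have : CharP S p := charP_of_injective_algebraMap (FaithfulSMul.algebraMap_injective R S) p
  have : IsAdicComplete (maximalIdeal S) S := isAdicComplete_maximalIdeal_of_finite R S
  have : Infinite (ResidueField S) := infinite_residueField_of_isLocalHom R S
  have hd : dimNat S = dimNat R := dimNat_eq_of_finite_flat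
  obtain ⟨y, r, hy, hyr⟩ := exists_reduction (A := S)
  have hym : ∀ i, y i ∈ maximalIdeal S := fun i => hy (Ideal.subset_span ⟨i, rfl⟩)
  have hyr0 : maximalIdeal S ^ (1 + r) ≤ Ideal.span (Set.range y) := by simpa using hyr 1
  -- the residue field of `S` is finite over `k`
  have hkres : Module.Finite k (ResidueField R) := by
    refine Module.Finite.of_surjective (Algebra.linearMap k (ResidueField R)) fun q => ?_
    obtain ⟨a, rfl⟩ := residue_surjective q
    obtain ⟨c, hc⟩ := hres a
    refine ⟨c, ?_⟩
    rw [Algebra.linearMap_apply, IsScalarTower.algebraMap_apply k R (ResidueField R),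
      ResidueField.algebraMap_eq, eq_comm, ← sub_eq_zero, ← map_sub, residue_eq_zero_iff]
    exact hc
  have hl : Module.Finite k (ResidueField S) := by
    have : Module.Finite (ResidueField R) (ResidueField S) := inferInstance
    exact Module.Finite.trans (ResidueField R) (ResidueField S)
  have hlk : Module.length k (S ⧸ Ideal.span (Set.range y)) =
      ((qlen (Ideal.span (Set.range y)) * Module.finrank k (ResidueField S) : ℕ) : ℕ∞) := by
    rw [length_field_eq_mul (k := k) (B := S), ← coe_qlen hyr0, Module.length_eq_finrank]
    push_cast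
    rfl
  have hfin : Module.Finite k (S ⧸ Ideal.span (Set.range y)) :=
    have h : IsFiniteLength k (S ⧸ Ideal.span (Set.range y)) :=
      Module.length_ne_top_iff.1 (by rw [hlk]; exact ENat.natCast_ne_top _)
    have := (isFiniteLength_iff_isNoetherian_isArtinian.1 h).1
    Module.IsNoetherian.finite k _
  -- regularity
  obtain ⟨x, hx, hxreg⟩ := hCM
  have hxS : IsWeaklyRegular S ((List.ofFn x).map (algebraMap R S)) := hxreg.of_flat
  have hreg : IsWeaklyRegular S (List.ofFn y) := by
    refine isWeaklyRegular_of_good (k := k) (List.ofFn y) ((List.ofFn x).map (algebraMap R S)) S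
      (by rw [List.length_map, List.length_ofFn, List.length_ofFn, hd]) ?_ (forall_mem_ofFn hym)
      hxS ⟨inferInstance, ?_⟩
    · intro a ha
      obtain ⟨b, hb, rfl⟩ := List.mem_map.1 ha
      exact map_nonunit (algebraMap R S) b (forall_mem_ofFn hx b hb)
    · have hf : Module.Finite k (S ⧸ Ideal.ofList (List.ofFn y)) := by rwa [ofList_ofFn]
      exact finite_quot_of_le (I := Ideal.ofList (List.ofFn y)) le_sup_right
  -- a flat parametrisation over a coefficient field of `S`
  have : PerfectField (ResidueField S) := Algebra.IsAlgebraic.perfectField (K := ResidueField R)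
  obtain ⟨τ, hτ⟩ := exists_coefficientField (R := S) p
  obtain ⟨φ, hC, hX, -⟩ := exists_evalHom τ y hym
  have hspan : (fun i => φ (MvPowerSeries.X i)) = y := funext hX
  have hφ : φ.Finite := finite_of_powerSeriesHom φ
    (fun a => ⟨residue S a, by
      rw [hC, ← residue_eq_zero_iff, map_sub, hτ, sub_self]⟩)
    (fun i => by rw [hX]; exact hym i) (r := 1 + r) (by rw [hspan]; exact hyr0)
  have hflat : φ.Flat := by
    obtain ⟨hf, -⟩ := free_powerSeries φ hφ (by rw [hspan]; exact hreg)
    let := φ.toAlgebra
    have : Module.Free (MvPowerSeries (Fin (dimNat S)) (ResidueField S)) S := hf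
    exact inferInstanceAs (Module.Flat (MvPowerSeries (Fin (dimNat S)) (ResidueField S)) S)
  have hle := le_liminf_hsSeq φ hflat (fun i => by rw [hX]; exact hym i) (r := r)
    (by rw [hspan]; exact hyr)
  rw [hspan] at hle
  have hrange : Set.range (fun i => y (Fin.cast hd.symm i)) = Set.range y :=
    Function.Surjective.range_comp (fun j => ⟨Fin.cast hd j, by simp⟩) y
  refine ⟨fun i => y (Fin.cast hd.symm i), fun i => hym _, ?_, ?_, hl, ?_, ?_⟩
  · have : List.ofFn (fun i => y (Fin.cast hd.symm i)) = List.ofFn y := by
      rw [List.ofFn_congr hd]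
    rw [this]
    exact hreg
  · rw [hrange]; exact hfin
  · rw [hrange]; exact hle
  · rw [hrange]
    have := Module.length_eq_finrank k (S ⧸ Ideal.span (Set.range y))
    rw [hlk] at this
    exact_mod_cast this.symm

end Vale.Agent.P202
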