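import Vale.Agent.P202.Main.Numeric
import Vale.Agent.P202.Main.Target
import Vale.Agent.P202.Koszul.Bridge

/-!
# P202: Lech's inequality for a complete Cohen-Macaulay source ring of characteristic `p`
-/

noncomputable section

namespace Vale.Agent.P202

open IsLocalRing Filter
open scoped ENNReal

universe u

/-- Lech's inequality over an abstract coefficient field. -/
theorem lech_cm_aux (p : ℕ) [Fact p.Prime] {k : Type u} [Field k] [CharP k p] [PerfectRing k p]
    (R : Type u) [CommRing R] [IsNoetherianRing R] [IsLocalRing R] [CharP R p]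
    [IsAdicComplete (maximalIdeal R) R] [PerfectField (ResidueField R)] [Infinite (ResidueField R)]
    [Algebra k R] (hres : ∀ a : R, ∃ c, a - algebraMap k R c ∈ maximalIdeal R)
    (hCM : HasRegularSop R)
    (S : Type u) [CommRing S] [IsLocalRing S] [Algebra R S] [IsLocalHom (algebraMap R S)]
    [Module.Finite R S] [Module.Flat R S] :
    limsup (hsSeq R) atTop ≤ liminf (hsSeq S) atTop := by
  classical
  let algS : Algebra k S := ((algebraMap R S).comp (algebraMap k R)).toAlgebra
  have : IsScalarTower k R S := IsScalarTower.of_algebraMap_eq fun c => rfl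
  have hsurj : Function.Surjective (algebraMap k (ResidueField R)) := fun q => by
    obtain ⟨a, rfl⟩ := residue_surjective q
    obtain ⟨c, hc⟩ := hres a
    refine ⟨c, ?_⟩
    rw [IsScalarTower.algebraMap_apply k R (ResidueField R), ResidueField.algebraMap_eq, eq_comm,
      ← sub_eq_zero, ← map_sub, residue_eq_zero_iff]
    exact hc
  have : Module.Finite k (ResidueField R) :=
    Module.Finite.of_surjective (Algebra.linearMap k (ResidueField R)) hsurj
  have hone : Module.finrank k (ResidueField R) ≤ 1 := by
    have := LinearMap.finrank_le_finrank_of_surjective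
      (f := Algebra.linearMap k (ResidueField R)) hsurj
    rwa [Module.finrank_self] at this
  obtain ⟨y, hym, hyreg, hyfin, hlfin, hlow, hdim⟩ := exists_target (k := k) p hCM (S := S) hres
  obtain ⟨φ, r, e, hC, hX, hφ, ⟨hfree, hrank⟩, hxfin, hpow, hup⟩ :=
    exists_source (k := k) hCM hres
  have : Module.Free R S := Module.free_of_flat_of_isLocalRing
  set xs := List.ofFn (fun i => φ (MvPowerSeries.X i)) with hxs
  set ys := List.ofFn y with hys
  have : Module.Finite k (R ⧸ Ideal.ofList xs) := by rw [hxs, ofList_ofFn]; exact hxfin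
  have : Module.Finite k (S ⧸ Ideal.ofList ys) := by rw [hys, ofList_ofFn]; exact hyfin
  obtain ⟨G, hlen, -, -, hf, htw⟩ := exists_twist (k := k) p (x := xs) (y := ys)
    (forall_mem_ofFn hX) (forall_mem_ofFn hym) (by rw [List.length_ofFn, List.length_ofFn])
    (Module.finBasis R S)
  have hb : emult k ys S = ((qlen (Ideal.span (Set.range y)) * Module.finrank k (ResidueField S) :
      ℕ) : ℤ) := by
    rw [emult_eq_finrank ys S hyreg, ← hdim]
    congr 1
    let e₁ : RestrictScalars k S (S ⧸ (Ideal.ofList ys • ⊤ : Submodule S S)) ≃ₗ[k]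
        (S ⧸ (Ideal.ofList ys • ⊤ : Submodule S S)) :=
      { RestrictScalars.addEquiv k S _ with
        map_smul' := fun c z => by
          obtain ⟨z, rfl⟩ := (RestrictScalars.addEquiv k S _).symm.surjective z
          rfl }
    refine (e₁.trans ((Submodule.quotEquivOfEq _ _ ?_).restrictScalars k)).finrank_eq
    rw [smul_eq_mul, Ideal.mul_top, hys, ofList_ofFn]
  let algφ : Algebra (MvPowerSeries (Fin (dimNat R)) k) R := φ.toAlgebra
  have : IsScalarTower k (MvPowerSeries (Fin (dimNat R)) k) R :=
    IsScalarTower.of_algebraMap_eq fun c => (hC c).symm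
  have : Module.Finite (MvPowerSeries (Fin (dimNat R)) k) R := hφ
  have : Module.Free (MvPowerSeries (Fin (dimNat R)) k) R := hfree
  let bV := Module.finBasisOfFinrankEq (MvPowerSeries (Fin (dimNat R)) k) R hrank
  have key : ((G.rank 0 * e : ℕ) : ℤ) ≤ emult k ys S := by
    refine rank_le_of_family (k := k) (D := dimNat R) _ _ r fun Q => ?_
    obtain ⟨N, hN⟩ : ∃ N : ℕ, max Q (r + 1) ≤ p ^ N :=
      ⟨_, (Nat.lt_pow_self (Fact.out : p.Prime).one_lt).le⟩
    obtain ⟨hent, hfin, hchi, -⟩ := htw N (iterateFrobenius_finite R p N)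
    refine ⟨p ^ N, (le_max_left _ _).trans hN, (G.map (iterateFrobenius R p N)).restrict bV,
      ⟨?_, ?_, ?_⟩, ?_, ?_⟩
    · refine FreeCx.restrict_lengthLE _ bV ?_
      intro g
      have := hlen g
      rwa [hxs, List.length_ofFn] at this
    · refine FreeCx.restrict_entriesIn _ bV fun h g => ?_
      have h2 : r ≤ p ^ N := by omega
      have h3 := hpow (p ^ N - r)
      rw [Nat.sub_add_cancel h2] at h3
      exact h3 (hent h g)
    · exact ((G.map (iterateFrobenius R p N)).restrict_hom_self bV (k := k)).1.2 hfin
    · exact FreeCx.restrict_rank _ bV 0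
    · rw [((G.map (iterateFrobenius R p N)).restrict_hom_self bV (k := k)).2, hchi, hxs,
        List.length_ofFn]
  rw [hb, Nat.cast_le] at key
  refine le_of_mul_le (f := Module.finrank k (ResidueField S))
    (Module.finrank_pos) ?_ hup hlow le_rfl
  calc e * Module.finrank k (ResidueField S)
      ≤ e * (G.rank 0 * Module.finrank k (ResidueField R)) := Nat.mul_le_mul_left e hf
    _ ≤ e * (G.rank 0 * 1) := Nat.mul_le_mul_left e (Nat.mul_le_mul_left _ hone)
    _ = G.rank 0 * e := by ring
    _ ≤ _ := key

/-- Lech's inequality for complete Cohen-Macaulay `R` with perfect infinite residue field and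
module-finite flat local `S`. -/
theorem lech_cm_main (p : ℕ) [Fact p.Prime]
    (R : Type u) [CommRing R] [IsNoetherianRing R] [IsLocalRing R] [CharP R p]
    [IsAdicComplete (maximalIdeal R) R] [PerfectField (ResidueField R)] [Infinite (ResidueField R)]
    (hCM : HasRegularSop R)
    (S : Type u) [CommRing S] [IsLocalRing S] [Algebra R S] [IsLocalHom (algebraMap R S)]
    [Module.Finite R S] [Module.Flat R S] :
    limsup (hsSeq R) atTop ≤ liminf (hsSeq S) atTop := by
  obtain ⟨σ, hσ⟩ := exists_coefficientField (R := R) p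
  have : PerfectRing (ResidueField R) p := PerfectField.toPerfectRing p
  let : Algebra (ResidueField R) R := σ.toAlgebra
  exact lech_cm_aux p R (fun a => ⟨residue R a, by
    rw [← residue_eq_zero_iff, map_sub, RingHom.algebraMap_toAlgebra, hσ, sub_self]⟩) hCM S

end Vale.Agent.P202

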