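import Vale.Agent.P202.CoreBound

/-!
# P202: the core bound in every dimension, dimension zero included
-/

noncomputable section

namespace Vale.Agent.P202

universe u

variable {k : Type u} [Field k]

/-- The core bound, including zero variables. -/
theorem coreBound' (K : ℕ) (hK : 1 ≤ K) {D : ℕ} (G : FreeCx (PS k D)) (hG : Admissible K G) :
    (G.rank 0 : ℤ) * (K : ℤ) ^ D ≤ G.chi (PS k D) k := by
  rcases Nat.eq_zero_or_pos D with rfl | hD
  swap
  · exact coreBound hD hK G hG
  rw [pow_zero, mul_one]
  have hpos : ∀ g, G.pos g = 0 := fun g => Nat.le_zero.1 (hG.length g)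
  have hmat : ∀ h g, G.mat h g = 0 := fun h g => by
    by_contra hne
    have := G.mat_pos h g hne
    have := hpos g
    omega
  have hd : ∀ x : G.ι → PS k 0, (G.diff (PS k 0) k).d x = 0 := fun x => funext fun h => by
    change ∑ g, G.mat h g • x g = 0
    simp [hmat]
  have hb : ∀ j, (G.diff (PS k 0) k).bdries ⊤ ⊥ j = ⊥ := fun j => by
    simp only [Diff.bdries, bot_inf_eq, sup_bot_eq, eq_bot_iff]
    rintro _ ⟨w, -, rfl⟩
    exact hd w
  rw [FreeCx.chi, Diff.chi, finsum_eq_single _ 0]
  · have hfin : Module.Finite k ((G.diff (PS k 0) k).H ⊤ ⊥ 0) := hG.finite 0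
    simp only [Int.negOnePow_zero, Units.val_one, one_mul]
    norm_cast
    let ι : (G.ι → k) →ₗ[k] (G.diff (PS k 0) k).cycles ⊤ ⊥ 0 :=
      { toFun := fun c => ⟨fun g => MvPowerSeries.C (c g),
          ⟨trivial, fun g hg => absurd (by rw [hpos g]; rfl) hg⟩, by simp [hd]⟩
        map_add' := fun c c' => Subtype.ext (funext fun g => map_add _ _ _)
        map_smul' := fun a c => Subtype.ext (funext fun g => by
          simp [Algebra.smul_def, MvPowerSeries.algebraMap_apply]) }
    have hι : Function.Injective ((Submodule.mkQ _).comp ι :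
        (G.ι → k) →ₗ[k] (G.diff (PS k 0) k).H ⊤ ⊥ 0) := by
      intro c c' h
      rw [LinearMap.comp_apply, LinearMap.comp_apply, Submodule.mkQ_apply, Submodule.mkQ_apply,
        Submodule.Quotient.eq, Submodule.mem_comap, hb, Submodule.mem_bot, Submodule.subtype_apply,
        AddSubgroupClass.coe_sub, sub_eq_zero] at h
      funext g
      simpa [ι] using congrArg MvPowerSeries.constantCoeff (congrFun h g)
    have := LinearMap.finrank_le_finrank_of_injective hι
    rw [Module.finrank_fintype_fun_eq_card] at this
    refine le_trans (le_of_eq ?_) this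
    rw [FreeCx.rank, Finset.filter_true_of_mem (fun g _ => hpos g), Finset.card_univ]
  · intro j hj
    have hzero : Subsingleton ((G.diff (PS k 0) k).H ⊤ ⊥ j) := by
      refine Submodule.Quotient.subsingleton_iff.2 (eq_top_iff.2 fun x _ => ?_)
      have : x.1 = 0 := funext fun g => x.2.1.2 g (by rw [hpos g]; simpa using hj.symm)
      rw [Submodule.mem_comap, Submodule.subtype_apply, this]
      exact Submodule.zero_mem _
    simp [Diff.betti, Module.finrank_zero_of_subsingleton]

end Vale.Agent.P202
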