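import Vale.Agent.P202.Main.RingFacts
import Vale.Agent.P202.RingSide.Reduction

/-!
# P202: the source ring as a free module over power series
-/

noncomputable section

namespace Vale.Agent.P202

open IsLocalRing RingTheory.Sequence Filter
open scoped ENNReal

universe u

/-- A Cohen-Macaulay complete local ring is free of rank `qlen (x)` over power series in a
minimal reduction `x`; this rank dominates the multiplicity. -/
theorem exists_source {k : Type u} [Field k]
    {R : Type u} [CommRing R] [IsNoetherianRing R] [IsLocalRing R]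
    [IsAdicComplete (maximalIdeal R) R] [Infinite (ResidueField R)]
    (hCM : HasRegularSop R) [Algebra k R] (hres : ∀ a : R, ∃ c, a - algebraMap k R c ∈ maximalIdeal R) :
    ∃ (φ : MvPowerSeries (Fin (dimNat R)) k →+* R) (r e : ℕ),
      (∀ c, φ (MvPowerSeries.C c) = algebraMap k R c) ∧
      (∀ i, φ (MvPowerSeries.X i) ∈ maximalIdeal R) ∧ φ.Finite ∧
      (letI := φ.toAlgebra
       Module.Free (MvPowerSeries (Fin (dimNat R)) k) R ∧
        Module.finrank (MvPowerSeries (Fin (dimNat R)) k) R = e) ∧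
      Module.Finite k (R ⧸ Ideal.span (Set.range fun i => φ (MvPowerSeries.X i))) ∧
      (∀ N, maximalIdeal R ^ (N + r) ≤
        (maximalIdeal (MvPowerSeries (Fin (dimNat R)) k) ^ N).map φ) ∧
      limsup (hsSeq R) atTop ≤ (e : ℝ≥0∞) := by
  obtain ⟨x, r, hx, hxr⟩ := exists_reduction (A := R)
  have hxm : ∀ i, x i ∈ maximalIdeal R := fun i => hx (Ideal.subset_span ⟨i, rfl⟩)
  have hxr0 : maximalIdeal R ^ (1 + r) ≤ Ideal.span (Set.range x) := by simpa using hxr 1
  obtain ⟨hfin, hq⟩ := finite_finrank_quotient hres hxr0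
  obtain ⟨φ, hC, hX, -⟩ := exists_evalHom (algebraMap k R) x hxm
  have hspan : (fun i => φ (MvPowerSeries.X i)) = x := funext hX
  have hφ : φ.Finite := finite_of_powerSeriesHom φ (fun a => by
      obtain ⟨c, hc⟩ := hres a
      exact ⟨c, by rw [hC]; exact hc⟩)
    (fun i => by rw [hX]; exact hxm i) (r := 1 + r) (by rw [hspan]; exact hxr0)
  refine ⟨φ, r, qlen (Ideal.span (Set.range x)), hC, fun i => by rw [hX]; exact hxm i, hφ, ?_,
    by rw [hspan]; exact hfin, fun N => ?_, limsup_hsSeq_le x hx hxr0⟩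
  · have hk : ∀ c, (φ.comp MvPowerSeries.C) c = algebraMap k R c := hC
    have halg : (φ.comp MvPowerSeries.C).toAlgebra = ‹Algebra k R› := Algebra.algebra_ext _ _ hk
    have h := free_powerSeries φ hφ (by
      rw [hspan]
      exact hCM.isWeaklyRegular x hxm hfin)
    rw [halg, hspan, hq] at h
    exact h
  · refine (hxr N).trans (le_of_eq ?_)
    rw [Ideal.map_pow, maximalIdeal_mvPowerSeries, Ideal.map_span, ← Set.range_comp,
      ← hspan]
    rfl

/-- Asymptotic comparison: `a (q - r)^d ≤ q^d b` for arbitrarily large `q` gives `a ≤ b`. -/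
theorem le_of_asymptotic {a b : ℤ} (ha : 0 ≤ a) (d r : ℕ)
    (h : ∀ Q : ℕ, ∃ q : ℕ, Q ≤ q ∧ r < q ∧ a * ((q : ℤ) - r) ^ d ≤ (q : ℤ) ^ d * b) : a ≤ b := by
  by_contra hlt
  obtain ⟨q, hQ, hr, hq⟩ := h (a.toNat * d * r + r + 1)
  have hqz : (0 : ℤ) < q := by exact_mod_cast lt_of_le_of_lt (Nat.zero_le r) hr
  have hber : (q : ℤ) * ((q : ℤ) ^ d) - (d * r : ℕ) * (q : ℤ) ^ d ≤ q * ((q : ℤ) - r) ^ d := by
    clear h hQ hlt hq
    induction d with
    | zero => simp
    | succ d ih =>
      have h1 : 0 ≤ ((q : ℤ) - r) := by omega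
      have h2 := mul_le_mul_of_nonneg_left ih h1
      have h3 : (0 : ℤ) ≤ (r : ℤ) * (d * r : ℕ) * (q : ℤ) ^ d := by positivity
      push_cast at h2 h3 ⊢
      rw [pow_succ, pow_succ]
      nlinarith
  have hQ' : a * (d * r : ℕ) < q := by
    have : ((a.toNat * d * r + r + 1 : ℕ) : ℤ) ≤ q := by exact_mod_cast hQ
    push_cast at this ⊢
    rw [Int.toNat_of_nonneg ha] at this
    nlinarith
  have hqd : (0 : ℤ) < (q : ℤ) ^ d := pow_pos hqz d
  have h4 := mul_le_mul_of_nonneg_left hber ha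
  have h5 := mul_le_mul_of_nonneg_left hq hqz.le
  have h6 : (q : ℤ) ^ d * (q : ℤ) ≤ (q : ℤ) ^ d * (a * (d * r : ℕ)) := by
    have h7 : (q : ℤ) * (q : ℤ) ^ d * 1 ≤ (q : ℤ) * (q : ℤ) ^ d * (a - b) :=
      mul_le_mul_of_nonneg_left (by omega) (by positivity)
    nlinarith
  exact absurd (le_of_mul_le_mul_left h6 hqd) (by omega)

end Vale.Agent.P202
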