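import Vale.Agent.P202.Main.CoreAll
import Vale.Agent.P202.Main.Source

/-!
# P202: the asymptotic step
-/

noncomputable section

namespace Vale.Agent.P202

open Filter
open scoped ENNReal

universe u

/-- Complexes with entries in the `(q - r)`-th power of the maximal ideal and Euler characteristic
`q ^ D * b`, for unboundedly many `q`, have rank at most `b`. -/
theorem rank_le_of_family {k : Type u} [Field k] {D : ℕ} (a : ℕ) (b : ℤ) (r : ℕ)
    (h : ∀ Q : ℕ, ∃ q : ℕ, Q ≤ q ∧ ∃ G : FreeCx (PS k D), Admissible (q - r) G ∧ G.rank 0 = a ∧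
      G.chi (PS k D) k = (q : ℤ) ^ D * b) : (a : ℤ) ≤ b := by
  refine le_of_asymptotic (Int.natCast_nonneg a) D r fun Q => ?_
  obtain ⟨q, hq, G, hG, hr, hc⟩ := h (max Q (r + 1))
  have hrq : r < q := lt_of_lt_of_le (Nat.lt_succ_self r) ((le_max_right _ _).trans hq)
  refine ⟨q, (le_max_left _ _).trans hq, hrq, ?_⟩
  have := coreBound' (q - r) (by omega) G hG
  rw [hr, hc, Nat.cast_sub hrq.le] at this
  exact this

/-- The final comparison. -/
theorem le_of_mul_le {e f E L : ℕ} (hf : 1 ≤ f) (h : e * f ≤ E * f) {A B : ℝ≥0∞}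
    (hA : A ≤ (e : ℝ≥0∞)) (hB : (L : ℝ≥0∞) ≤ B) (hE : E ≤ L) : A ≤ B :=
  hA.trans ((Nat.cast_le.2 ((Nat.le_of_mul_le_mul_right h hf).trans hE)).trans hB)

end Vale.Agent.P202
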